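import Vale.Agent.Lib.P050.Ops
import Vale.Agent.Lib.P050.GrFinal

/-!
Two partial results on Sidorenko's conjecture in one statement.

(1) Host side: `t(H,G) ≥ p(G)^{e(H)}` for every bipartite graph `H` and every host graph `G` in
the class `Buildable` (the smallest isomorphism-closed class of graphs that contains the
one-vertex graph and is closed under the lexicographic products `K_k[G]`, under `k` disjoint
copies and under categorical products).

(2) Local form for measurable kernels on the unit square with the constant `log 2`: if `H` is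
bipartite with `m` edges, `W` is a symmetric Borel measurable kernel with integral `1` over
`[0,1]^2` and `|W - 1| * m ≤ log 2` almost everywhere on `[0,1]^2`, then `t(H,W) ≥ 1`.
-/

namespace Vale.Agent.Results.P050.HostsAndLocalForm

open MeasureTheory Vale.Agent.Lib.P050

theorem result :
    (∀ {W : Type} (G : SimpleGraph W), Buildable G →
      ∀ {V : Type} [Finite V] (H : SimpleGraph V), H.IsBipartite →
        (2 * (Nat.card G.edgeSet : ℝ) / (Nat.card W : ℝ) ^ 2) ^ Nat.card H.edgeSet
          ≤ (Nat.card (H →g G) : ℝ) / (Nat.card W : ℝ) ^ Nat.card V) ∧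
    (∀ {V : Type} [Fintype V] [DecidableEq V] (H : SimpleGraph V) [DecidableRel H.Adj],
      H.IsBipartite → ∀ (W : ℝ → ℝ → ℝ), Measurable (Function.uncurry W) →
      ∀ (hsymm : ∀ x y, W x y = W y x),
      (∫ p in Set.Icc (0:ℝ) 1 ×ˢ Set.Icc (0:ℝ) 1, W p.1 p.2 = 1) →
      (∀ᵐ p ∂(volume.restrict (Set.Icc (0:ℝ) 1 ×ˢ Set.Icc (0:ℝ) 1)),
        |W p.1 p.2 - 1| * (H.edgeFinset.card : ℝ) ≤ Real.log 2) →
      1 ≤ ∫ x in Set.pi Set.univ (fun _ : V => Set.Icc (0:ℝ) 1),
            ∏ e ∈ H.edgeFinset,
              Sym2.lift ⟨fun a b => W (x a) (x b), fun a b => hsymm (x a) (x b)⟩ e) :=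
  ⟨fun G hG _ _ H hH => sidorenko_of_buildable G hG H hH,
    fun H _ hH W hmeas hsymm hden hloc => Gr.kernel_local H hH W hmeas hsymm hden hloc⟩

end Vale.Agent.Results.P050.HostsAndLocalForm
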