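import Vale.Agent.Lib.P050.Ops

/-!
Sidorenko's inequality `t(H,G) ≥ p(G)^{e(H)}` for every bipartite graph `H` and every host
graph `G` in the class `Buildable`: the smallest isomorphism-closed class of graphs that
contains the one-vertex graph and is closed under the lexicographic products `K_k[G]`
(`selfJoin k G`), under `k` disjoint copies (`copies k G`) and under categorical products
(`tensor`).  The class contains all complete graphs, all balanced complete multipartite
graphs and all iterated lexicographic products of complete and empty graphs.
-/

namespace Vale.Agent.Results.P050.LexProductHosts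

open Vale.Agent.Lib.P050

theorem result {W : Type} (G : SimpleGraph W) (hG : Buildable G)
    {V : Type} [Finite V] (H : SimpleGraph V) (hH : H.IsBipartite) :
    (2 * (Nat.card G.edgeSet : ℝ) / (Nat.card W : ℝ) ^ 2) ^ Nat.card H.edgeSet
      ≤ (Nat.card (H →g G) : ℝ) / (Nat.card W : ℝ) ^ Nat.card V :=
  sidorenko_of_buildable G hG H hH

end Vale.Agent.Results.P050.LexProductHosts
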