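import Vale.Agent.Lib.P050.LocIface

/-!
Local form of Sidorenko's inequality with the constant `log 2` in place of `1 / 4`.

`H` is a finite bipartite graph with `m` edges, `Ω` is a finite nonempty set carrying the
uniform probability measure and `W : Ω → Ω → ℝ` is symmetric with mean `1`.  If
`|W x y - 1| * m ≤ log 2` for all `x, y`, then the homomorphism density
`t(H, W) = |Ω|^(-|V(H)|) * ∑ φ : V(H) → Ω, ∏ uv ∈ E(H), W (φ u) (φ v)` is at least `1`.
-/

namespace Vale.Agent.Results.P050.LocalImprovedConstant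

open Vale.Agent.Lib.P050.Loc

theorem result {V : Type} [Fintype V] [DecidableEq V] (H : SimpleGraph V)
    [DecidableRel H.Adj] (hH : H.IsBipartite) {Ω : Type} [Fintype Ω] [Nonempty Ω]
    (W : Ω → Ω → ℝ) (hsymm : ∀ x y, W x y = W y x)
    (hden : (∑ x, ∑ y, W x y) / (Fintype.card Ω : ℝ) ^ 2 = 1)
    (hloc : ∀ x y, |W x y - 1| * (H.edgeFinset.card : ℝ) ≤ Real.log 2) :
    1 ≤ (∑ φ : V → Ω, ∏ e ∈ H.edgeFinset,
          Sym2.lift ⟨fun a b => W (φ a) (φ b), fun a b => hsymm (φ a) (φ b)⟩ e)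
        / (Fintype.card Ω : ℝ) ^ Fintype.card V :=
  local_sidorenko H hH W hsymm hden hloc

end Vale.Agent.Results.P050.LocalImprovedConstant
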