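import Vale.Agent.Lib.P050.GrFinal

/-!
Local form of Sidorenko's inequality for measurable kernels on the unit square, with the
constant `log 2` in place of `1 / 4`.

`H` is a finite bipartite graph with `m` edges and `W` is a symmetric Borel measurable kernel
whose integral over `[0,1]^2` is `1`.  If `|W - 1| * m ≤ log 2` almost everywhere on `[0,1]^2`,
then the homomorphism density
`t(H, W) = ∫ over [0,1]^V(H) of ∏ uv ∈ E(H), W (x u) (x v)` is at least `1`.
-/

namespace Vale.Agent.Results.P050.LocalKernelLogTwo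

open MeasureTheory

theorem result {V : Type} [Fintype V] [DecidableEq V] (H : SimpleGraph V)
    [DecidableRel H.Adj] (hH : H.IsBipartite) (W : ℝ → ℝ → ℝ)
    (hmeas : Measurable (Function.uncurry W)) (hsymm : ∀ x y, W x y = W y x)
    (hden : ∫ p in Set.Icc (0:ℝ) 1 ×ˢ Set.Icc (0:ℝ) 1, W p.1 p.2 = 1)
    (hloc : ∀ᵐ p ∂(volume.restrict (Set.Icc (0:ℝ) 1 ×ˢ Set.Icc (0:ℝ) 1)),
      |W p.1 p.2 - 1| * (H.edgeFinset.card : ℝ) ≤ Real.log 2) :
    1 ≤ ∫ x in Set.pi Set.univ (fun _ : V => Set.Icc (0:ℝ) 1),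
          ∏ e ∈ H.edgeFinset,
            Sym2.lift ⟨fun a b => W (x a) (x b), fun a b => hsymm (x a) (x b)⟩ e :=
  Vale.Agent.Lib.P050.Gr.kernel_local H hH W hmeas hsymm hden hloc

end Vale.Agent.Results.P050.LocalKernelLogTwo
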